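import Vale.Agent.P239.Bridge

namespace Vale.Agent.Results.P239.Singer

theorem result (M X Γ : Type) [TopologicalSpace M] [T2Space M] [CompactSpace M] [ConnectedSpace M]
    [ChartedSpace (EuclideanSpace ℝ (Fin 4)) M] [TopologicalSpace X] [ContractibleSpace X]
    [Group Γ] [MulAction Γ X] [ContinuousConstSMul Γ X] (p : X → M)
    (hp : IsQuotientCoveringMap p Γ) (n : ℕ) (hn : n ≠ 2) :
    Vale.Agent.P239.Pub.l2Betti Γ X n = 0 :=
  (Vale.Agent.P239.pub_l2Betti Γ X n).trans (Vale.Agent.P239.singer hp hn)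

end Vale.Agent.Results.P239.Singer
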